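import Vale.Agent.P183.Levels.Main
import Vale.Agent.P183.Duality

/-! Gluing congruence lattices, and lattices representable component by component. -/

namespace Vale.Agent.Results.P183.GluedComponents

open Vale.Agent.P183 Vale.Agent.P183.Levels

/-- Each minimal join cover of an irreducible `k` has at most one member in the component of `k`. -/
abbrev OnePerComponent (L : Type) [Lattice L] [OrderBot L] : Prop :=
  ∀ k : L, SupIrred k → ∀ B, IsMinCover k B → ∀ b ∈ B, ∀ b' ∈ B,
    Relation.ReflTransGen JoinDep b k → Relation.ReflTransGen JoinDep b' k → b = b'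

/-- Congruence lattices of finite algebras are closed under gluing along a monotone map; lattices
with at most one member per dependency component in each minimal cover, in the lattice or in its
dual, are representable; and a lattice is representable when all its levels for some rank are. -/
theorem result :
    (∀ (ι κ β : Type) (R : ι → ι → Prop) (S : κ → κ → Prop), IsConLattice R → IsConLattice S →
      ∀ φ : ι → κ, (∀ i j, R i j → S (φ i) (φ j)) → ∀ (m : β → κ) (q : β → ι),
        (∀ t i, ¬S (φ i) (m t) → R (q t) i) →
        IsConLattice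
          (fun p p' : {p : ι × κ // S (φ p.1) p.2 ∧ ∀ t, ¬S p.2 (m t) → R (q t) p.1} =>
            R p.1.1 p'.1.1 ∧ S p.1.2 p'.1.2)) ∧
    (∀ (L : Type) [Lattice L] [BoundedOrder L] [Finite L],
      OnePerComponent L ∨ OnePerComponent Lᵒᵈ → IsConLattice (fun a b : L => a ≤ b)) ∧
    (∀ (L : Type) [Lattice L] [OrderBot L] [Finite L],
      (∀ k b b' : L, SupIrred k → b ≠ k → b' ≠ k →
        Relation.ReflTransGen JoinDep k b → Relation.ReflTransGen JoinDep b k →
        Relation.ReflTransGen JoinDep k b' → Relation.ReflTransGen JoinDep b' k → b = b') →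
      IsConLattice (fun a b : L => a ≤ b)) ∧
    (∀ (L : Type) [Lattice L] [OrderBot L] [Finite L] (r : L → ℕ),
      (∀ k : L, SupIrred k → ∀ A : Finset L, k ≤ A.sup id → ∃ B : Finset L,
        (∀ b ∈ B, SupIrred b ∧ ∃ a ∈ A, b ≤ a) ∧ k ≤ B.sup id ∧ ∀ b ∈ B, r b ≤ r k) →
      (∀ n, IsConLattice (fun P Q : {Y : Set L // LocalClosed r n Y} => P.1 ⊆ Q.1)) →
      IsConLattice (fun a b : L => a ≤ b)) := by
  refine ⟨fun ι κ β R S hR hS φ hφ m q hq => Glue.glue_cut hR hS φ hφ m q hq,
    fun L _ _ _ h => ?_, fun L _ _ _ h => ?_, fun L _ _ _ r href hloc => ?_⟩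
  · have : Fintype L := Fintype.ofFinite L
    rcases h with h | h
    · exact isConLattice_of_component glueStmt h
    · have : Fintype Lᵒᵈ := Fintype.ofFinite Lᵒᵈ
      exact (isConLattice_of_component glueStmt h).dual.congr OrderDual.toDual fun a b => Iff.rfl
  · have : Fintype L := Fintype.ofFinite L
    exact isConLattice_of_small_components glueStmt fun k hk b b' => h k b b' hk
  · have : Fintype L := Fintype.ofFinite L
    exact isConLattice_of_levels r href glueStmt hloc

end Vale.Agent.Results.P183.GluedComponents
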