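import Vale.Agent.P183.Preorders.Main

/-! All intervals in the lattice of preorders on a finite set are congruence lattices. -/

namespace Vale.Agent.Results.P183.PreorderIntervals

open Vale.Agent.P183

/-- For a finite set and preorders `r₀ ≤ r₁` on it, the preorders between them, ordered by
inclusion, form the congruence lattice of a finite algebra. -/
theorem result : ∀ (α : Type) [Finite α] (r₀ r₁ : α → α → Prop),
    ((∀ a, r₀ a a) ∧ ∀ a b c, r₀ a b → r₀ b c → r₀ a c) →
    ((∀ a, r₁ a a) ∧ ∀ a b c, r₁ a b → r₁ b c → r₁ a c) → r₀ ≤ r₁ →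
    IsConLattice (fun r s : {r : α → α → Prop // (∀ a, r a a) ∧
      (∀ a b c, r a b → r b c → r a c) ∧ r₀ ≤ r ∧ r ≤ r₁} => r.1 ≤ s.1) :=
  fun _ _ r₀ r₁ h0 h1 h01 => Preorders.isConLattice_preorders r₀ r₁ h0 h1 h01

end Vale.Agent.Results.P183.PreorderIntervals
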