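import Vale.Agent.P183.Enum
import Vale.Agent.P183.Winged
import Vale.Agent.P183.Reps1
import Vale.Agent.P183.Reps2
import Vale.Agent.P183.Reps3
import Vale.Agent.P183.Reps4
import Vale.Agent.P183.RepsProd
import Vale.Agent.P183.RepMore18
import Vale.Agent.P183.RepMore65
import Vale.Agent.P183.Rep26Small
import Vale.Agent.P183.Rep27
import Vale.Agent.P183.Rep28
import Vale.Agent.P183.Rep34
import Vale.Agent.P183.Rep35
import Vale.Agent.P183.Rep38
import Vale.Agent.P183.Rep43

/-! Every lattice with at most seven elements is the congruence lattice of a finite algebra. -/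

namespace Vale.Agent.Results.P183.SevenElements

open Vale.Agent.P183 Vale.Agent.P183.Reps

theorem all78 : ∀ c ∈ small78, IsConLattice (maskRel c) := by
  simp only [small78, List.forall_mem_cons]
  exact ⟨rep0, rep1, rep2, rep3, rep4, rep5, rep6, rep7, rep8, rep9, rep10, rep11, rep12, rep13,
    rep14, rep15, rep16, rep17, rep18, rep19, rep20, rep21, rep22, rep23, rep24, rep25,
    rep26Small, rep27, rep28, rep29, rep30, rep31, rep32, rep33, rep34, rep35, rep36, rep37,
    rep38, rep39, rep40, rep41, rep42, rep43, rep44, rep45, rep46, rep47, rep48, rep49, rep50,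
    rep51, rep52, rep53, rep54, rep55, rep56, rep57, rep58, rep59, rep60, rep61, rep62, rep63,
    rep64, rep65, rep66, rep67, rep68, rep69, rep70, rep71, rep72, rep73, rep74, rep75, rep76,
    rep77, by simp⟩

/-- Every lattice with at most seven elements is isomorphic to the lattice of all congruences of a
finite algebra; moreover the winged 2x3 lattice is a subgroup interval in a finite group. -/
theorem result :
    (∀ (L : Type) [Lattice L] [Finite L] [Nonempty L], Nat.card L ≤ 7 →
      IsConLattice (fun a b : L => a ≤ b)) ∧ IsFiniteGroupInterval winged :=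
  ⟨fun L _ _ _ hL => of_small78 all78 L hL, interval⟩

end Vale.Agent.Results.P183.SevenElements
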